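import Vale.Agent.P062.M.Mono

namespace Vale.Agent.P062.M

open Vale.Agent.P062

/-- the cell with index j (row stride 64) relative to the base point v -/
def cellAt (v : Cell) (j : ℕ) : Cell := (v.1 + ((j % 64 : ℕ) : ℤ), v.2 + ((j / 64 : ℕ) : ℤ))

/-- The situation (P, Z) is winning: wherever it is placed, if Maker owns the cells of P and
Breaker owns no cell of Z, then Maker (to move) wins. Bits below 64 carry no meaning. -/
def Valid (P Z : ℕ) : Prop :=
  ∀ (v : Cell) (S B : Finset Cell),
    (∀ j, P.testBit (j + 64) = true → cellAt v j ∈ S) →
    (∀ j, Z.testBit (j + 64) = true → cellAt v j ∉ B) →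
    Disjoint S B → MakerWins Set.univ S B

/-- a proved situation, lying in the columns below 32 -/
structure VPat where
  P : ℕ
  Z : ℕ
  valid : Valid P Z
  cols : ∀ j, (P ||| Z).testBit (j + 64) = true → j % 64 < 32

/-- the eight orientation masks (row stride 64), each shifted by 64, packed in fields of 384 bits -/
def bases : ℕ := 314939372073245997345697748909303730991183434755950987032382205215709410563807953012768254317827708589690544725154515700338450896450468985048960349198901480838352870041473362395450987231192167053199640263766866094778818428107529367187378439915449111198775450423940013074429795446691689001538109598390040934338779840332441354550985788828305507980578785348823120881592950987248025187725024076760084438117361805810041966369639918683926202954154843669232987440259154453019354653541610397383247069269026005724283204463551520918798936110443671134630730770464711726900374824216111154755055910839920384715962202713752178272266449081806381839570059734654790815043846390278683706963541056638968883665816521839090729290681085185321581853666104605493433897160104706521951542354150249696868440511103232690830009673746173243588474368141222306780771861249821816324446568224536145644032909528975927702514337937758565171200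

/-- the columns below 32 of the rows below 66 -/
def loMask : ℕ := 82745012005426417616506864526607715270036950966133258562127637395876509160180942503949143100421062616331579904878213361294856983535816957721127112042557397793689002477163064743893837068038450140973246915444467404903948071460726209920629838602763134571173832641325206472706403718578830947852590760067346960230774509157881215693374228644700132307500367623255527290738486782333944565876262525155981849184937969572024555312515673960270701094399617813071727509154908806055752928507959384074184441477179561306887487460051963369810868998136986332576709287994682699756798057371537801951601867193174687634807616380220309012973024038413964081025864664747305040154124233709839394838593060831395759228764822118655962804157034162811850117115280901967739303961539905336079413044776101682492724760007791124458737178833296212196470190005945618071393075496980185926601266744955862336315810756670211501416517445818121810541711683834029763612694456398385798365160718402591629437523710759869116442705921303972080242306930582307436103245574395651738386512638907063909586008071305426414628288289145311881611594926621161938346017767532597462385800868655189492648895419841258658069531279089919524250917574215617239106236210155805172042983927627245875146720094422644203195841689572868095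

inductive Res
  | fail : Res
  | ok (pos I U : ℕ) (deps : List VPat) : Res

/-- mask of the copy with anchor i and orientation o -/
noncomputable def maskOf (i o : ℕ) : ℕ :=
  Nat.shiftLeft (Nat.land (Nat.shiftRight bases (Nat.mul o 384)) 39402006196394479212279040100143613805079739270465446667948293404245721771497210611414266254884915640806627990306815) i

/-- pure bit of the cell field at offset sh of the token word -/
noncomputable def pbit (w sh : ℕ) : ℕ :=
  Nat.shiftLeft 18446744073709551616 (Nat.land (Nat.shiftRight w sh) 4095)

noncomputable def stepW (w pos M : ℕ) (deps : List VPat) : Res :=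
  Bool.rec Res.fail
    (Res.ok (Nat.add pos 30) (pbit w 3) (pbit w 3) deps)
    (Nat.beq (Nat.xor (maskOf (Nat.land (Nat.shiftRight w 15) 4063) (Nat.shiftRight w 27))
      (Nat.land M (maskOf (Nat.land (Nat.shiftRight w 15) 4063) (Nat.shiftRight w 27)))) (pbit w 3))

noncomputable def stepN (ih : ℕ → ℕ → List VPat → Res) (w pos M : ℕ) (deps : List VPat) : Res :=
  Res.rec Res.fail (fun pos2 I U deps2 =>
      Bool.rec Res.fail
        (Res.ok pos2 (Nat.xor (Nat.lor U (pbit w 3)) w) (Nat.xor (Nat.lor U (pbit w 3)) w) deps2)
        (Nat.beq (Nat.shiftRight I 64) 0))
      (ih (Nat.add pos 15) (Nat.xor M (Nat.lor (pbit w 3) w)) deps)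

noncomputable def stepA (ih : ℕ → ℕ → List VPat → Res) (pos M : ℕ) (deps : List VPat) : Res :=
  Res.rec Res.fail (fun pos2 I1 U1 deps2 =>
    Res.rec Res.fail (fun pos3 I2 U2 deps3 => Res.ok pos3 (Nat.land I1 I2) (Nat.lor U1 U2) deps3)
      (ih pos2 M deps2))
    (ih (Nat.add pos 3) M deps)

/-- fused token: Maker plays x, threatening to complete a copy at y; M1 is the mask after x -/
noncomputable def stepT (ih : ℕ → ℕ → List VPat → Res) (w pos M1 : ℕ) (deps : List VPat) : Res :=
  Bool.rec Res.fail
    (Res.rec Res.fail (fun pos2 I U deps2 =>
      Bool.rec Res.fail
        (Res.ok pos2 (Nat.xor (Nat.lor U (Nat.lor (pbit w 3) (pbit w 15))) w)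
          (Nat.xor (Nat.lor U (Nat.lor (pbit w 3) (pbit w 15))) w) deps2)
        (Nat.beq (Nat.land I (pbit w 15)) 0))
      (ih (Nat.add pos 42) M1 deps))
    (Nat.beq (Nat.xor (maskOf (Nat.land (Nat.shiftRight w 27) 4063) (Nat.shiftRight w 39))
      (Nat.land M1 (maskOf (Nat.land (Nat.shiftRight w 27) 4063) (Nat.shiftRight w 39))))
      (pbit w 15))

/-- reference to the next proved situation, shifted by f -/
noncomputable def stepR (w f pos M : ℕ) (deps : List VPat) : Res :=
  List.rec Res.fail (fun d rest _ =>
    VPat.rec (fun P Z _ _ =>
      Bool.rec Res.fail
        (Res.ok (Nat.add pos 15)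
          (Nat.xor (Nat.xor (Nat.shiftLeft Z f) (Nat.land (Nat.shiftLeft Z f) M)) w)
          (Nat.xor (Nat.xor (Nat.shiftLeft Z f) (Nat.land (Nat.shiftLeft Z f) M)) w) rest)
        (Nat.beq (Nat.land M (Nat.shiftLeft P f)) (Nat.shiftLeft P f))) d) deps

noncomputable def step1 (ih : ℕ → ℕ → List VPat → Res) (w pos M : ℕ) (deps : List VPat) : Res :=
  Nat.rec (stepT ih w pos (Nat.xor M (Nat.lor (pbit w 3) w)) deps) (fun t _ =>
    Nat.rec (stepW (Nat.land w 1073741823) pos M deps) (fun t _ =>
      Nat.rec (stepA ih pos M deps) (fun t _ =>
        Nat.rec (stepR w (Nat.land (Nat.shiftRight w 3) 4063) pos M deps) (fun t _ =>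
          Nat.rec (stepN ih w pos M deps) (fun _ _ => Res.fail) t) t) t) t) (Nat.land w 7)

noncomputable def go (code fuel : ℕ) : ℕ → ℕ → List VPat → Res :=
  Nat.rec (fun _ _ _ => Res.fail)
    (fun _ ih pos M deps =>
      step1 ih (Nat.land (Nat.shiftRight code pos) 4398046511103) pos M deps) fuel

noncomputable def join : List ℕ → ℕ :=
  List.rec 0 (fun a _ r => Nat.lor a (Nat.shiftLeft r 6400))

noncomputable def check (fuel : ℕ) (pieces : List ℕ) (deps : List VPat) (P Z : ℕ) : Bool :=
  Nat.rec false (fun code _ =>
    Res.rec false (fun _ I U _ =>
      Bool.and (Nat.beq (Nat.shiftRight I 64) (Nat.shiftRight Z 64))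
        (Bool.and (Nat.beq (Nat.shiftRight U 64) (Nat.shiftRight Z 64))
          (Nat.beq (Nat.land (Nat.lor P Z) loMask) (Nat.lor P Z))))
      (go code fuel 0 P deps)) (Nat.add (join pieces) 1)

end Vale.Agent.P062.M
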